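import Vale.Agent.P366.T6.Y3355
import Vale.Agent.P366.T6.RadAsm355

namespace Vale.Agent.Results.P366.AllWithEquality
open Vale.Agent.P366 Vale.Agent.P366.Stmt Vale.Agent.T4

/-- The sharp spacetime Penrose inequality, with its equality case, for initial data of cohomogeneity
one (with `K ≠ 0`, for all the linear groups that act transitively on the spheres), for initial
data without symmetry for which the centred spheres outside the boundary are homogeneous with an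
arbitrary lapse or are an inverse mean curvature flow, and the torsion term of the spheres is
bounded by the energy density and `K(ν, ·)`, and, with `P ≠ 0`, for conformally flat data with a
radial trace of `K`. -/
theorem result (n : ℕ) (hn : 3 ≤ n) (D : Stmt.Exterior n) (hAF : D.IsAF) (hDEC : D.DEC)
    (hT : D.Trapped) (m : ℝ) (P : Fin n → ℝ) (hm : D.IsEnergy m) (hP : D.IsMomentum P)
    (R₁ : ℝ) (hR₁ : IsGreatest {r | ∃ x, D.F x = 0 ∧ len x = r} R₁) :
    ((∃ Γ, TransGroup n Γ ∧ InvUnder Γ R₁ D.g ∧ InvUnder Γ R₁ D.K) ∨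
      ((∀ x, R₁ ≤ len x → ∀ i, ∑ j, D.g x i j * x j = radial D.g x * x i) ∧
        TorsionBound D.g D.K R₁ ∧
        ((∃ Γ, TransGroup n Γ ∧ InvUnder Γ R₁ (spherical D.g)) ∨
          ∃ ρ : ℝ → ℝ, (∀ r, R₁ ≤ r → 0 < ρ r) ∧
            (∀ x, R₁ ≤ len x →
              (mat (unitLapse D.g) x).det = (ρ (len x) / len x) ^ (2 * (n - 1))) ∧
            ∀ r, R₁ < r → sph (vol n) r (sphereScal D.g) / Stmt.omega n ≤
              ((n : ℝ) - 1) * ((n : ℝ) - 2) / ρ r ^ 2)) →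
      D.Amin ≠ ⊤ ∧ 0 < m ∧
      (D.Amin.toReal / Stmt.omega n) ^ (((n : ℝ) - 2) / (n - 1)) / 2 ≤ m ∧
      (Outermost D → (D.Amin.toReal / Stmt.omega n) ^ (((n : ℝ) - 2) / (n - 1)) / 2 = m →
        IsSlice m D.g D.K {x | R₁ < len x})) ∧
    ((∃ Γ, TransGroup n Γ ∧ InvUnder Γ R₁ D.g ∧ InvUnder Γ R₁ D.K) → P = 0) ∧
    ((∃ c k : ℝ → ℝ,
        (∀ x, R₁ ≤ len x → ∀ i j, D.g x i j = if i = j then c (len x) else 0) ∧
        ∀ x, R₁ ≤ len x → Stmt.trS D.g D.K len x = k (len x)) →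
      D.Amin ≠ ⊤ ∧ √(∑ i, P i ^ 2) < m ∧
      (D.Amin.toReal / Stmt.omega n) ^ (((n : ℝ) - 2) / (n - 1)) / 2 ≤
        √(m ^ 2 - ∑ i, P i ^ 2) ∧
      ((D.Amin.toReal / Stmt.omega n) ^ (((n : ℝ) - 2) / (n - 1)) / 2 =
        √(m ^ 2 - ∑ i, P i ^ 2) →
        P = 0 ∧ (Outermost D → IsSlice m D.g D.K {x | R₁ < len x}))) := by
  obtain ⟨h1, h2, -⟩ := union hn D hAF hDEC hT m P hm hP R₁ hR₁
  refine ⟨?_, h2, ?_⟩
  · rintro (h | ⟨hperp, hK, hleaf⟩)
    · exact h1 (Or.inl h)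
    · exact finalY hn hAF hDEC hT hm hR₁ hperp hleaf hK
  · rintro ⟨c, k, hc, hk⟩
    exact radialTraceEq hn hAF hDEC hT hm hP hR₁ hc hk

end Vale.Agent.Results.P366.AllWithEquality
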