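import Vale.Agent.P366.T1.BMain
import Vale.Agent.P366.T1.BoostAsymp

namespace Vale.Agent.Results.P366.BoostedSlices
open Vale.Agent.P366 Vale.Agent.P366.T1

/-- The sharp spacetime Penrose inequality, with `P ≠ 0` in general, for the (non-symmetric) slices
of the spherically symmetric spacetimes which are asymptotic to boosted planes, with a weakly future
trapped boundary of any shape. -/
theorem result (n : ℕ) (hn : 3 ≤ n) (M : Spacetime) (c : ℝ) (hE : M.DEC n) (hM : M.IsAFIn n c)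
    (D : Stmt.Exterior n) (f : Stmt.E n → ℝ) (L : Stmt.E n ≃L[ℝ] Stmt.E n)
    (hS : IsSliceIn M f L D)
    (hf : ∃ b < c, ∃ R, ∀ x, R < Stmt.len x → |f x| ≤ b * Stmt.len x) (hAF : D.IsAF)
    (hT : D.Trapped) (m : ℝ) (P : Fin n → ℝ) (hm : D.IsEnergy m) (hP : D.IsMomentum P) :
    D.Amin ≠ ⊤ ∧ √(∑ i, P i ^ 2) < m ∧
    (D.Amin.toReal / Stmt.omega n) ^ (((n : ℝ) - 2) / (n - 1)) / 2 ≤
      √(m ^ 2 - ∑ i, P i ^ 2) :=
  bfinal hn hE hS hT (basympt hn hE hM hS hf hAF hm hP)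

end Vale.Agent.Results.P366.BoostedSlices
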