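import Vale.Agent.P366.T5.CohomF92

namespace Vale.Agent.Results.P366.CohomogeneityOne
open Vale.Agent.P366 Vale.Agent.P366.Stmt Vale.Agent.T4

/-- The spacetime Penrose inequality, with its equality case, for all initial data of cohomogeneity
one: the data are invariant, outside the smallest centred ball containing the boundary, under a
linear group that acts transitively on the spheres. -/
theorem result (n : ℕ) (hn : 3 ≤ n) (D : Stmt.Exterior n) (hAF : D.IsAF) (hDEC : D.DEC)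
    (hT : D.Trapped) (m : ℝ) (P : Fin n → ℝ) (hm : D.IsEnergy m) (hP : D.IsMomentum P)
    (R₁ : ℝ) (hR₁ : IsGreatest {r | ∃ x, D.F x = 0 ∧ len x = r} R₁)
    (G : Matrix (Fin n) (Fin n) ℝ → Prop) (hG : TransGroup n G)
    (hg : InvUnder G R₁ D.g) (hK : InvUnder G R₁ D.K) :
    P = 0 ∧ D.Amin ≠ ⊤ ∧ √(∑ i, P i ^ 2) < m ∧
    (D.Amin.toReal / Stmt.omega n) ^ (((n : ℝ) - 2) / (n - 1)) / 2 ≤
      √(m ^ 2 - ∑ i, P i ^ 2) ∧
    (Outermost D → (D.Amin.toReal / Stmt.omega n) ^ (((n : ℝ) - 2) / (n - 1)) / 2 =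
      √(m ^ 2 - ∑ i, P i ^ 2) → IsSlice m D.g D.K {x | R₁ < len x}) :=
  cohom hn (stEqU hn) (stEqQ hn) hAF hDEC hT hm hP hR₁ hG hg hK

end Vale.Agent.Results.P366.CohomogeneityOne
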