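import Vale.Agent.P366.T6.Y3355

namespace Vale.Agent.Results.P366.FlowBound
open Vale.Agent.P366 Vale.Agent.P366.Stmt Vale.Agent.T4

/-- The sharp spacetime Penrose inequality (with the energy in place of the mass), with its
equality case, for initial data without symmetry for which the centred spheres outside the boundary
are an inverse mean curvature flow (or are homogeneous, with an arbitrary lapse), and the torsion
term of the spheres is bounded by the energy density and `K(ν, ·)`. -/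
theorem result (n : ℕ) (hn : 3 ≤ n) (D : Stmt.Exterior n) (hAF : D.IsAF) (hDEC : D.DEC)
    (hT : D.Trapped) (m : ℝ) (hm : D.IsEnergy m)
    (R₁ : ℝ) (hR₁ : IsGreatest {r | ∃ x, D.F x = 0 ∧ len x = r} R₁)
    (hperp : ∀ x, R₁ ≤ len x → ∀ i, ∑ j, D.g x i j * x j = radial D.g x * x i)
    (hleaf : (∃ G, TransGroup n G ∧ InvUnder G R₁ (spherical D.g)) ∨
      ∃ ρ : ℝ → ℝ, (∀ r, R₁ ≤ r → 0 < ρ r) ∧
        (∀ x, R₁ ≤ len x →
          (mat (unitLapse D.g) x).det = (ρ (len x) / len x) ^ (2 * (n - 1))) ∧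
        ∀ r, R₁ < r → sph (vol n) r (sphereScal D.g) / Stmt.omega n ≤
          ((n : ℝ) - 1) * ((n : ℝ) - 2) / ρ r ^ 2)
    (hK : TorsionBound D.g D.K R₁) :
    D.Amin ≠ ⊤ ∧ 0 < m ∧
    (D.Amin.toReal / Stmt.omega n) ^ (((n : ℝ) - 2) / (n - 1)) / 2 ≤ m ∧
    (Outermost D → (D.Amin.toReal / Stmt.omega n) ^ (((n : ℝ) - 2) / (n - 1)) / 2 = m →
      IsSlice m D.g D.K {x | R₁ < len x}) :=
  finalY hn hAF hDEC hT hm hR₁ hperp hleaf hK

end Vale.Agent.Results.P366.FlowBound
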